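import Vale.Agent.P283R.Dn.St

/-!
# P283R, block DN: normal forms compose
-/

open Set

noncomputable section

namespace Vale.Agent.P283R.Dn

open Vale.Agent.P287D
open Cf (Acl dn)

namespace C9

theorem fuel {D d r : ℕ} {k K : Type} [Field k] [Algebra ℂ k] [Field K] [Algebra ℂ K]
    [Algebra k K] {T : Set (Pl K)} {m n : ℕ} (h : m ≤ n) (g : Gn D m d r k K T) :
    Gn D n d r k K T := by
  induction n, h using Nat.le_induction with
  | base => exact g
  | succ n _ ih =>
    rw [Gn]
    exact Or.inl ih

theorem rk {k K : Type} [Field k] [Field K] [Algebra k K]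
    (h : Function.Surjective (algebraMap k K)) : Module.finrank k K ≤ 1 :=
  finrank_le_one (1 : K) fun w => by
    obtain ⟨c, rfl⟩ := h w
    exact ⟨c, by rw [Algebra.smul_def, mul_one]⟩

theorem idq {D : ℕ} {k K L : Type} [Field k] [Field K] [Algebra ℂ K] [Field L] [Algebra k K]
    [Algebra k L] [Algebra L K] [IsScalarTower k L K] [FiniteDimensional k L]
    (h : Function.Surjective (algebraMap k L)) (hD : 1 ≤ D) {T T' : Set (Pl K)} (s : T' ⊆ T) :
    Sqr D k L T T' where
  com a := (IsScalarTower.algebraMap_apply k L K a).symm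
  f1 := inferInstance
  f2 := inferInstance
  r1 := (rk h).trans hD
  r2 := (rk (k := K) (K := K) Function.surjective_id).trans hD
  un P hP := ⟨P, s hP, fun _ => Iff.rfl, P.ord_t⟩

end C9

open C9 in
theorem cmr9 : CMR := by
  intro S k M K _ _ _ _ _ _ _ _ _ _ _ _ _ T D d a b T₁ hD fk fM fK a1 a2 a3 s g2 g1
  have fK' : FF K (d + (a + b)) := by rwa [← add_assoc]
  rcases Nat.eq_zero_or_pos b with rfl | hb
  · have : FiniteDimensional M K := Pb.fin_of_ff fM fK
    have sj : Function.Surjective (algebraMap M K) := fun z =>
      a2 z (Algebra.IsAlgebraic.isAlgebraic z)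
    let e : M ≃+* K := RingEquiv.ofBijective (algebraMap M K) ⟨(algebraMap M K).injective, sj⟩
    let _ : Algebra K M := (e.symm : K →+* M).toAlgebra
    have ee : ∀ x : M, algebraMap K M (algebraMap M K x) = x := fun x => e.symm_apply_apply x
    have e2 : ∀ x : K, algebraMap M K (algebraMap K M x) = x := fun x => e.apply_symm_apply x
    have : IsScalarTower ℂ K M := IsScalarTower.of_algebraMap_eq fun x => by
      rw [IsScalarTower.algebraMap_apply ℂ M K, ee]
    have su : Function.Surjective (algebraMap K M) := fun x => ⟨_, ee x⟩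
    have : FiniteDimensional K M := Module.Finite.of_surjective (Algebra.linearMap K M) su
    refine S k K k M T T₁ 1 D D a d a fk fK a3 ⟨fun x => ?_, inferInstance, inferInstance,
      rk Function.surjective_id, rk su, fun P' hP => ?_⟩ (one_mul D).le g1
    · rw [IsScalarTower.algebraMap_apply k M K, ee]
      rfl
    · obtain ⟨P, hT, l⟩ := s hP
      have l' : Lies (algebraMap K M) P' P := fun f => by rw [l, e2]
      refine ⟨P, hT, l', le_antisymm ((Cf.Ds.e_le l').trans ?_) l'.e_pos⟩
      exact_mod_cast rk su
  rcases Nat.eq_zero_or_pos a with rfl | ha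
  · have : FiniteDimensional k M := Pb.fin_of_ff fk fM
    have sj : Function.Surjective (algebraMap k M) := fun z =>
      a1 z (Algebra.IsAlgebraic.isAlgebraic z)
    rw [Nat.zero_add] at fK' ⊢
    exact S k K M K T T 1 D D b d b fk fK' a3 (idq sj le_rfl subset_rfl) (one_mul D).le g2
  obtain ⟨n, hn⟩ : ∃ n, a + b = n + 1 := ⟨a + b - 1, by omega⟩
  have g3 : Gn D a d a k M (dn M T) :=
    S k M k M _ T₁ 1 D D a d a fk fM a1 (idq Function.surjective_id le_rfl s) (one_mul D).le g1
  have g : Gn D (n + 1) d (a + b) k K T := by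
    rw [Gn]
    exact Or.inr ⟨fk, fK', a3, k, M, K, inferInstance, inferInstance, inferInstance, inferInstance,
      inferInstance, inferInstance, inferInstance, inferInstance, inferInstance, inferInstance,
      inferInstance, inferInstance, inferInstance, inferInstance, inferInstance, inferInstance,
      inferInstance, T, a, b, rfl, idq Function.surjective_id hD subset_rfl,
      fuel (by omega) g2, fuel (by omega) g3⟩
  exact fuel hn.ge g

end Vale.Agent.P283R.Dn
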