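import Vale.Agent.P283R.Dn.St
import Vale.Agent.P283R.Dp.God11

/-!
# P283R, block DN: the state descends along a square (row `GOA`)
-/

namespace Vale.Agent.P283R.Dn

open Vale.Agent.P287D

/-- **GOA** -/
theorem goa79 : GOA := fun D q _ M ε ε' q0 _ M0 ε0 ε1 => by
  refine ⟨q * (M * (D + 1).factorial) * ⌈1 / (ε' / (D + 1 : ℕ))⌉₊.factorial,
    M * (D + 1).factorial, ε' / (D + 1 : ℕ), by positivity, by positivity, by positivity, ?_⟩
  intro k K L F _ _ _ _ _ _ _ _ _ _ _ _ _ _ _ _ T T' d r _ fk fK ac s go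
  have := s.f1
  have := s.f2
  exact Dp.G11.go fk fK (Hd.ff_up fk) (Hd.ff_up fK) s.com ac (s.r2.trans D.le_succ)
    (s.r1.trans D.le_succ) s.un ε0 ε1 M0 go

end Vale.Agent.P283R.Dn
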