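import Vale.Agent.P283R.Dn.St

/-!
# P283R, block DN, rows GOC and GOM
-/

open Set

namespace Vale.Agent.P283R.Dn

open Vale.Agent.P287D Vale.Agent.P297Z Cf

/-- **GOC** -/
theorem goc65 : GOC := by
  intro k K' K _ _ _ _ _ _ _ _ _ _ _ _ _ T d e n q q₁ M₁ q₂ M₂ ε ε₁ ε₂ hM₁ hM₂ hK' hK G₁ G₂
    k₀ ι _ _ _ φ v c μ y x m h hy hx m0 h0 S
  have tw : algebraMap k K = (algebraMap K' K).comp (algebraMap k K') :=
    IsScalarTower.algebraMap_eq k K' K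
  have ok : Ok (algebraMap K' K) := hK.ok (IsScalarTower.toAlgHom ℂ K' K)
  have mid : ∀ P w, Lies (algebraMap k K) P w →
      ∃ P', Lies (algebraMap K' K) P P' ∧ Lies (algebraMap k K') P' w := fun P w l => by
    rw [tw] at l
    exact (ok P).elim (fun z => (l.not_trv (z.comp _)).elim) fun ⟨P', p⟩ => ⟨P', p, p.of_comp l⟩
  obtain ⟨y₁, D₁, hy₁, -⟩ := Cb.exists_cn hK'
  obtain ⟨m₁, h₁, θ₁, a1, a2, a3, S₁, o₁, l₁⟩ := G₁ k₀ ι ((algebraMap k K').comp φ) v c μ y₁ x m h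
    ⟨D₁, hy₁⟩ hx m0 h0 (by rwa [← RingHom.comp_assoc, ← tw])
  obtain ⟨m₂, h₂, θ₂, b1, b2, b3, S₂, o₂, l₂⟩ := G₂ k₀ ι φ v c μ y y₁ m₁ h₁ hy ⟨D₁, hy₁⟩ a1 a2 S₁
  have b4 := (map_ne_zero (algebraMap K' K)).2 b3
  refine ⟨m₂, h₂, θ₁ ^ M₂ * algebraMap K' K θ₂ ^ M₁, b1, b2,
    mul_ne_zero (pow_ne_zero _ a3) (pow_ne_zero _ b4), fun j w hw => ⟨(S₂ j w hw).1,
      fun ⟨P, p, l⟩ => (S₂ j w hw).2 ?_⟩, fun P => ?_, fun P w l => ?_⟩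
  · obtain ⟨P', p1, p2⟩ := mid P w l
    exact ⟨P', ⟨P, p, p1⟩, p2⟩
  · have k1 : (P.ord (algebraMap K' K h₁) : ℝ) / m₁ =
        P.ord (algebraMap k K h₂) / m₂ + P.ord (algebraMap K' K θ₂) / M₂ := by
      rw [IsScalarTower.algebraMap_apply k K' K h₂]
      rcases ok P with z | ⟨P', p⟩
      · simp [z.ord]
      · rw [p.ord h₁, p.ord (algebraMap k K' h₂), p.ord θ₂]
        push_cast
        rw [mul_div_assoc, o₂ P']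
        ring
    have n1 : (M₁ : ℝ) ≠ 0 := Nat.cast_ne_zero.2 hM₁.ne'
    have n2 : (M₂ : ℝ) ≠ 0 := Nat.cast_ne_zero.2 hM₂.ne'
    rw [o₁ P, k1, Pl.ord_mul _ (pow_ne_zero _ a3) (pow_ne_zero _ b4), Pl.ord_pow, Pl.ord_pow]
    push_cast
    field_simp
    ring
  · obtain ⟨P', p1, p2⟩ := mid P w l
    have e : ee P w = ee P P' * ee P' w := by
      rw [ee, ee, ee, IsScalarTower.algebraMap_apply k K' K w.t, p1.ord]
      push_cast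
      rfl
    have e0 : 0 ≤ ee P P' := Int.cast_nonneg_iff.2 p1.e_pos.le
    rw [e, mul_assoc]
    exact (mul_le_mul_of_nonneg_left (l₂ P' w p2) e0).trans (l₁ P P' p1)

/-- **GOM** -/
theorem gom65 : GOM := by
  rintro k K _ _ _ _ _ _ d n q q₁ M₁ _ _ ε ε₁ ε₂ T ⟨a, rfl⟩ ⟨b, rfl⟩ hM le G
    k₀ ι _ _ _ φ v c μ y x m h hy hx m0 h0 S
  obtain ⟨m₀, h₀, θ, a1, a2, a3, S₁, o, l⟩ := G k₀ ι φ v c μ y x m h hy hx m0 h0 S
  refine ⟨m₀, h₀, θ ^ b, a1, a2, pow_ne_zero _ a3, fun j w hw => ⟨le.trans (S₁ j w hw).1,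
    fun p => ⟨((S₁ j w hw).2 p).1, ?_⟩⟩, fun P => ?_, l⟩
  · obtain ⟨z, hz⟩ := ((S₁ j w hw).2 p).2
    exact ⟨a * z, by rw [Nat.cast_mul, mul_comm (q₁ : ℝ), mul_assoc, hz]; push_cast; rfl⟩
  · have n1 : (b : ℝ) ≠ 0 := Nat.cast_ne_zero.2 (Nat.pos_of_mul_pos_left hM).ne'
    rw [o P, Pl.ord_pow]
    push_cast
    rw [mul_comm (M₁ : ℝ), mul_div_mul_left _ _ n1]

end Vale.Agent.P283R.Dn
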