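import Vale.Agent.P283R.Dn.St
import Vale.Agent.P283R.Dp.Frr88
import Vale.Agent.P283R.Ft.Crp19

/-!
# P283R, block DN: the square of a small contraction (row `SMS`)
-/

open Set CategoryTheory AlgebraicGeometry

noncomputable section

namespace Vale.Agent.P283R.Dn

open Vale.Agent.P287D
open Vale.Agent.P283M Vale.Agent.P283M.Stm Vale.Agent.P283M.Stm.Var

/-- **SMS** -/
theorem sms19 : SMS := by
  intro X' X Y π g ι p p' pe hp hp' he hc
  have h : Semi (ι : X.K →+* X'.K) :=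
    ⟨ι.surjective, fun c => ⟨c, (pe.cst he c).symm⟩, fun c => ⟨c, pe.cst he c⟩⟩
  have sq : (ι : X.K →+* X'.K).comp p = p' := Dp.pe_uniq88 (Ft.G58.pe_comp pe hp) hp'
  let _ := p.toAlgebra
  let _ := p'.toAlgebra
  let _ := (ι : X.K →+* X'.K).toAlgebra
  have sb : Submodule.span X.K (range fun _ : Fin 1 => (1 : X'.K)) = ⊤ := eq_top_iff.2 fun a _ => by
    obtain ⟨c, rfl⟩ := ι.surjective a
    have := Submodule.smul_mem _ c (Submodule.subset_span (R := X.K)
      (s := range fun _ : Fin 1 => (1 : X'.K)) ⟨0, rfl⟩)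
    rwa [Algebra.smul_def, mul_one] at this
  refine ⟨fun a => (DFunLike.congr_fun sq a).symm, inferInstance,
    Module.Finite.of_fg_top (sb ▸ Submodule.fg_span (finite_range _)), (Module.finrank_self _).le,
    (finrank_le_of_span_eq_top sb).trans_eq (Fintype.card_fin 1), fun P' ⟨E, hE⟩ => ?_⟩
  obtain ⟨P, rfl⟩ := h.pl.surjective P'
  exact ⟨P, ⟨⟨_, hc E⟩, Ft.C19.dom pe h hE⟩, fun _ => h.mem_pl.symm,
    (h.ord_pl P _).trans P.ord_t⟩

end Vale.Agent.P283R.Dn
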