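import Vale.Agent.P283R.Dn.St

/-!
# P283R, block DN: normal forms descend along squares (row `SQG`)
-/

namespace Vale.Agent.P283R.Dn

open Vale.Agent.P287D

namespace S79

theorem mono {D D' : ℕ} (h : D ≤ D') : ∀ (n d r : ℕ) (k K : Type) [Field k] [Algebra ℂ k] [Field K]
    [Algebra ℂ K] [Algebra k K] (T : Set (Pl K)), Gn D n d r k K T → Gn D' n d r k K T
  | 0, _, _, _, _, _, _, _, _, _, _,
      ⟨a, b, c, L, F, i1, i2, i3, i4, i5, i6, i7, i8, i9, i10, T', e, f1, f2, r1, r2, u⟩ =>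
    ⟨a, b, c, L, F, i1, i2, i3, i4, i5, i6, i7, i8, i9, i10, T', e, f1, f2, r1.trans h,
      r2.trans h, u⟩
  | n + 1, _, _, _, _, _, _, _, _, _, _, .inl g => .inl (mono h n _ _ _ _ _ g)
  | n + 1, _, _, _, _, _, _, _, _, _, _, .inr ⟨a, b, c, L, M, F, i1, i2, i3, i4, i5, i6, i7, i8, i9,
      i10, i11, j1, j2, j3, j4, j5, j6, T', x, y, e, s, g, g'⟩ =>
    .inr ⟨a, b, c, L, M, F, i1, i2, i3, i4, i5, i6, i7, i8, i9, i10, i11, j1, j2, j3, j4, j5, j6,
      T', x, y, e, ⟨s.com, s.f1, s.f2, s.r1.trans h, s.r2.trans h, s.un⟩, mono h n _ _ _ _ _ g,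
      mono h n _ _ _ _ _ g'⟩

theorem comp {k K L F L' F' : Type} [Field k] [Field K] [Algebra ℂ K] [Field L] [Field F]
    [Algebra ℂ F] [Field L'] [Field F'] [Algebra ℂ F'] [Algebra k K] [Algebra k L] [Algebra K F]
    [Algebra L F] [Algebra L L'] [Algebra F F'] [Algebra L' F'] [Algebra k L'] [Algebra K F']
    [IsScalarTower k L L'] [IsScalarTower K F F'] {T : Set (Pl K)} {T' : Set (Pl F)}
    {T'' : Set (Pl F')} {j D D' : ℕ} (s : Sqr j k L T T') (t : Sqr D L L' T' T'')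
    (h : j * D ≤ D') : Sqr D' k L' T T'' := by
  have := s.f1
  have := s.f2
  have := t.f1
  have := t.f2
  refine ⟨fun a => ?_, .trans k L L', .trans K F F', ?_, ?_, fun R hR => ?_⟩
  · rw [IsScalarTower.algebraMap_apply k L L', t.com, s.com, ← IsScalarTower.algebraMap_apply]
  · exact (Module.finrank_mul_finrank k L L').ge.trans ((Nat.mul_le_mul s.r1 t.r1).trans h)
  · exact (Module.finrank_mul_finrank K F F').ge.trans ((Nat.mul_le_mul s.r2 t.r2).trans h)
  · obtain ⟨Q, hQ, l, o⟩ := t.un R hR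
    obtain ⟨P, hP, l', o'⟩ := s.un Q hQ
    refine ⟨P, hP, IsScalarTower.algebraMap_eq K F F' ▸ l.comp l', ?_⟩
    rw [IsScalarTower.algebraMap_apply K F F', l.ord, o, o', one_mul]

end S79

/-- **SQG** -/
theorem sqg79 : SQG := by
  intro k K L F _ _ _ _ _ _ _ _ _ _ _ _ _ _ _ _ T T' j D D' n d r fk fK ac s h g
  have := s.f1
  have le : D ≤ D' := (Nat.le_mul_of_pos_left D (Module.finrank_pos.trans_le s.r1)).trans h
  induction n with
  | zero =>
    obtain ⟨-, -, -, L', F', _, _, _, _, _, _, _, _, _, _, T'', e, f1, f2, r1, r2, u, w⟩ := g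
    let _ := ((algebraMap L L').comp (algebraMap k L)).toAlgebra
    let _ := ((algebraMap F F').comp (algebraMap K F)).toAlgebra
    have : IsScalarTower k L L' := .of_algebraMap_eq fun _ => rfl
    have : IsScalarTower K F F' := .of_algebraMap_eq fun _ => rfl
    have t := S79.comp s ⟨e, f1, f2, r1, r2, u⟩ h
    exact ⟨fk, fK, ac, L', F', _, _, _, _, _, _, _, .to₁₂₄ ℂ k L L', .to₁₂₄ ℂ K F F', ‹_›, T'',
      t.com, t.f1, t.f2, t.r1, t.r2, t.un, w⟩
  | succ n ih =>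
    obtain g | ⟨-, -, -, L', M, F', _, _, _, _, _, _, _, _, _, _, _, _, _, _, _, _, _, T'', a, b, e,
      t, g, g'⟩ := g
    · exact .inl (ih g)
    let _ := ((algebraMap L L').comp (algebraMap k L)).toAlgebra
    let _ := ((algebraMap F F').comp (algebraMap K F)).toAlgebra
    have : IsScalarTower k L L' := .of_algebraMap_eq fun _ => rfl
    have : IsScalarTower K F F' := .of_algebraMap_eq fun _ => rfl
    exact .inr ⟨fk, fK, ac, L', M, F', _, _, _, _, _, _, _, _, _, _, _, .to₁₂₄ ℂ k L L',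
      .to₁₂₄ ℂ K F F', ‹_›, ‹_›, ‹_›, ‹_›, T'', a, b, e, S79.comp s t h,
      S79.mono le n _ _ _ _ _ g, S79.mono le n _ _ _ _ _ g'⟩

end Vale.Agent.P283R.Dn
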