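import Vale.Agent.P283R.Dn.St

/-!
# P283R, block DN: the state descends along a normal form (row `TGR`)
-/

noncomputable section

namespace Vale.Agent.P283R.Dn

open Vale.Agent.P287D
open Cf (Go Acl ForE dn)

/-- **TGR** -/
theorem tgr64 : TGR := by
  intro tog goa goc gom D n
  induction n with
  | zero => exact fun r q ε q0 ε0 => tog D r q ε q0 ε0
  | succ n ih =>
    intro r q ε q0 ε0
    obtain ⟨q₀, M₀, ε₀, a0, b0, c0, H₀⟩ := ih r q ε q0 ε0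
    choose q₁ M₁ ε₁ a1 b1 c1 H₁ using fun b => ih b q ε q0 ε0
    choose q₂ M₂ ε₂ a2 b2 c2 H₂ using fun a => ih a (q₁ (r - a)) (ε₁ (r - a)) (a1 _) (c1 _)
    choose q₃ M₃ ε₃ a3 b3 c3 H₃ using fun a => goa D q (q₂ a) (M₁ (r - a) * M₂ a) ε (ε₂ a) q0 (a2 a)
      (Nat.mul_pos (b1 _) (b2 a)) ε0 (c2 a)
    obtain ⟨a', -, ha'⟩ := (Finset.range (r + 1)).exists_min_image ε₃ ⟨0, by simp⟩
    have M0 : 0 < M₀ * ∏ a ∈ Finset.range (r + 1), M₃ a :=
      Nat.mul_pos b0 (Finset.prod_pos fun a _ => b3 a)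
    refine ⟨q₀ * ∏ a ∈ Finset.range (r + 1), q₃ a, M₀ * ∏ a ∈ Finset.range (r + 1), M₃ a,
      min ε₀ (ε₃ a'), Nat.mul_pos a0 (Finset.prod_pos fun a _ => a3 a), M0, lt_min c0 (c3 _), ?_⟩
    intro k K _ _ _ _ _ _ d T hd h
    rcases h with h | ⟨hk, hK, ac, L, M, F, _, _, _, _, _, _, _, _, _, _, _, _, _, _, _, _, _, T',
      a, b, e, sq, g1, g2⟩
    · obtain ⟨hk, hK, go⟩ := H₀ k K d T hd h
      exact ⟨hk, hK, gom k K _ _ _ _ _ _ _ _ _ _ T (dvd_mul_right _ _) (dvd_mul_right _ _) M0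
        (min_le_left _ _) go⟩
    · have eb : r - a = b := by omega
      have ha : a ∈ Finset.range (r + 1) := Finset.mem_range.2 (by omega)
      obtain ⟨hM, hF, go1⟩ := H₁ b M F (d + a) T' (by omega) g1
      obtain ⟨-, -, go2⟩ := H₂ a L M d (dn M T') hd g2
      rw [eb] at go2
      have go3 := goc L M F T' _ _ _ _ _ _ _ _ _ _ _ (b1 b) (b2 a) hM hF go1 go2
      rw [Nat.add_assoc, ← e, ← eb] at go3
      exact ⟨hk, hK, gom k K _ _ _ _ _ _ _ _ _ _ T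
        ((Finset.dvd_prod_of_mem _ ha).mul_left _) ((Finset.dvd_prod_of_mem _ ha).mul_left _) M0
        ((min_le_right _ _).trans (ha' a ha)) (H₃ a k K L F T T' d r hd hk hK ac sq go3)⟩

end Vale.Agent.P283R.Dn
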