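import Vale.Agent.P283R.Dn.All

/-!
# P283R, block DN: geometric towers are nested towers
-/

open CategoryTheory AlgebraicGeometry

namespace Vale.Agent.P283R.Sl

open Var

theorem GeoTower.steps {J : ℕ} {X Y : Var} {g : X.X ⟶ Y.X} (h : GeoTower J g) : Steps J g := by
  obtain ⟨a, X', Y', g', π, e, p, et, ov, bc, hp, ⟨b, sp⟩, t⟩ := h
  refine .etale (k := 0 + 1) b a et ov bc.1 (fun x => ?_) (mul_one J).le t.steps
  obtain ⟨c, rfl⟩ := sp x
  have s : ∀ z : X.K, ∃ u : St X.X ((generic X'.X).map π), toRat u = z := fun z => by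
    obtain ⟨u, v, v0, rfl⟩ :=
      IsFractionRing.div_surjective (A := St X.X ((generic X'.X).map π)) z
    have n : toRat v ≠ 0 := fun o => nonZeroDivisors.ne_zero v0
      (IsFractionRing.injective (St X.X ((generic X'.X).map π)) X.K (o.trans (map_zero _).symm))
    have m : comap π (generic X'.X) v ≠ 0 := fun o => (map_ne_zero p).2 n
      ((hp _ v).trans (by rw [o]; exact map_zero _))
    have k : IsUnit (comap π (generic X'.X) v) := (Ne.isUnit (G₀ := X'.K) m :)
    obtain ⟨w, rfl⟩ : IsUnit v := isUnit_of_map_unit (π.stalkMap (generic X'.X)).hom v k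
    exact ⟨u * ↑w⁻¹, by rw [toRat, map_mul, map_units_inv, div_eq_mul_inv]⟩
  choose u hu using s
  exact ⟨_, fun i => u (c i), Finset.sum_congr rfl fun i _ => by rw [← hp, hu]⟩

theorem Steps.mono {J J' : ℕ} {X Y : Var} {g : X.X ⟶ Y.X} (h : Steps J g) (l : J ≤ J') :
    Steps J' g := by
  induction h generalizing J' with
  | one a b =>
    obtain ⟨m, rfl⟩ : ∃ m, J' = m + 1 := ⟨J' - 1, by omega⟩
    exact .one a b
  | comp _ _ a b => exact .comp (a l) (b l)
  | small p a b c _ i => exact .small p a b c (i l)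
  | etale b a e o q s u t _ => exact .etale b a e o q s (u.trans l) t

end Vale.Agent.P283R.Sl
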