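import Vale.Agent.P283R.Dn.St

/-!
# P283R, block DN: the row GOM
-/

noncomputable section

namespace Vale.Agent.P283R.Dn

open Vale.Agent.P287D

theorem gom31 : GOM := by
  intro k K _ _ _ _ _ _ d n q q₁ M₁ q₂ M₂ ε ε₁ ε₂ T hq hM hM₂ hε H
  intro k₀ ι _ _ _ φ v c μ y x m h hy hx hm hh hs
  obtain ⟨m₀, h₀, θ, h1, h2, h3, h4, h5, h6⟩ := H k₀ ι φ v c μ y x m h hy hx hm hh hs
  obtain ⟨a, rfl⟩ := hq
  obtain ⟨b, rfl⟩ := hM
  have hM₁ : (M₁ : ℝ) ≠ 0 := by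
    rintro h0
    have : M₁ = 0 := by exact_mod_cast h0
    simp [this] at hM₂
  have hb : (b : ℝ) ≠ 0 := by
    rintro h0
    have : b = 0 := by exact_mod_cast h0
    simp [this] at hM₂
  refine ⟨m₀, h₀, θ ^ b, h1, h2, pow_ne_zero _ h3, fun j P hP => ?_, fun P => ?_, h6⟩
  · obtain ⟨g1, g2⟩ := h4 j P hP
    refine ⟨hε.trans g1, fun hT => ?_⟩
    obtain ⟨g3, z, g4⟩ := g2 hT
    refine ⟨g3, a * z, ?_⟩
    push_cast
    rw [← g4]
    ring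
  · rw [h5 P, P.ord_pow θ b]
    push_cast
    field_simp

end Vale.Agent.P283R.Dn
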