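import Vale.Agent.P283R.Dn.St

/-!
# P283R, block DN: normal forms descend along squares
-/

open Set

noncomputable section

namespace Vale.Agent.P283R.Dn

open Vale.Agent.P287D
open Cf (Tow Acl dn)
open Dp (Gt)

namespace S35

section

variable {k K L F L₂ F₂ : Type} [Field k] [Field K] [Algebra ℂ K] [Field L] [Field F] [Algebra ℂ F]
  [Algebra k K] [Algebra k L] [Algebra K F] [Algebra L F] {T : Set (Pl K)} {T' : Set (Pl F)}
  {j D D' : ℕ}

theorem smono (h : Sqr D k L T T') (e : D ≤ D') : Sqr D' k L T T' :=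
  ⟨h.com, h.f1, h.f2, h.r1.trans e, h.r2.trans e, h.un⟩

theorem pos (h : Sqr j k L T T') : 1 ≤ j := by
  have := h.f1
  exact (Module.finrank_pos (R := k) (M := L)).trans_le h.r1

theorem scomp [Field L₂] [Field F₂] [Algebra ℂ F₂] [Algebra L L₂] [Algebra F F₂] [Algebra L₂ F₂]
    [Algebra k L₂] [Algebra K F₂] [IsScalarTower k L L₂] [IsScalarTower K F F₂]
    {T₂ : Set (Pl F₂)} (h : Sqr j k L T T') (g : Sqr D L L₂ T' T₂) : Sqr (j * D) k L₂ T T₂ := by
  have := h.f1
  have := h.f2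
  have := g.f1
  have := g.f2
  refine ⟨fun a => ?_, Module.Finite.trans L L₂, Module.Finite.trans F F₂, ?_, ?_, fun R hR => ?_⟩
  · rw [IsScalarTower.algebraMap_apply k L L₂, g.com, h.com, ← IsScalarTower.algebraMap_apply]
  · rw [← Module.finrank_mul_finrank k L L₂]
    exact Nat.mul_le_mul h.r1 g.r1
  · rw [← Module.finrank_mul_finrank K F F₂]
    exact Nat.mul_le_mul h.r2 g.r2
  · obtain ⟨Q, hQ, l, o⟩ := g.un R hR
    obtain ⟨P, hP, l', o'⟩ := h.un Q hQ
    refine ⟨P, hP, fun f => ?_, ?_⟩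
    · rw [IsScalarTower.algebraMap_apply K F F₂]
      exact (l' f).trans (l _)
    · rw [IsScalarTower.algebraMap_apply K F F₂, Lies.ord l, o, o', one_mul]

end

theorem mono {D D' : ℕ} (e : D ≤ D') (n : ℕ) : ∀ (d r : ℕ) (k K : Type) [Field k] [Algebra ℂ k]
    [Field K] [Algebra ℂ K] [Algebra k K] (T : Set (Pl K)), Gn D n d r k K T →
      Gn D' n d r k K T := by
  induction n with
  | zero =>
    intro d r k K _ _ _ _ _ T h
    obtain ⟨a1, a2, a3, L, F, i1, i2, i3, i4, i5, i6, i7, i8, i9, i10, T', c, f1, f2, r1, r2, u,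
      t⟩ := h
    exact ⟨a1, a2, a3, L, F, i1, i2, i3, i4, i5, i6, i7, i8, i9, i10, T', c, f1, f2, r1.trans e,
      r2.trans e, u, t⟩
  | succ n ih =>
    intro d r k K _ _ _ _ _ T h
    rcases h with h | ⟨a1, a2, a3, L, M, F, i1, i2, i3, i4, i5, i6, i7, i8, i9, i10, i11, i12, i13,
      i14, i15, i16, i17, T', a, b, hr, s, g1, g2⟩
    · exact Or.inl (ih _ _ _ _ _ h)
    · exact Or.inr ⟨a1, a2, a3, L, M, F, i1, i2, i3, i4, i5, i6, i7, i8, i9, i10, i11, i12, i13,
        i14, i15, i16, i17, T', a, b, hr, smono s e, ih _ _ _ _ _ g1, ih _ _ _ _ _ g2⟩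

end S35

open S35 in
/-- **SQG** -/
theorem sqg35 : SQG := by
  intro k K L F _ _ _ _ _ _ _ _ _ _ _ _ _ _ _ _ T T' j D D' n d r hk hK ac s e
  have e' : D ≤ D' := le_trans (Nat.le_mul_of_pos_left D (pos s)) e
  induction n with
  | zero =>
    rintro ⟨-, -, -, L₂, F₂, i1, i2, i3, i4, i5, i6, i7, i8, i9, i10, T₂, c, f1, f2, r1, r2, u, t⟩
    letI a1 : Algebra k L₂ := ((algebraMap L L₂).comp (algebraMap k L)).toAlgebra
    letI a2 : Algebra K F₂ := ((algebraMap F F₂).comp (algebraMap K F)).toAlgebra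
    haveI : IsScalarTower k L L₂ := IsScalarTower.of_algebraMap_eq fun _ => rfl
    haveI : IsScalarTower K F F₂ := IsScalarTower.of_algebraMap_eq fun _ => rfl
    have b1 : IsScalarTower ℂ k L₂ := IsScalarTower.of_algebraMap_eq fun x => by
      rw [IsScalarTower.algebraMap_apply k L L₂, ← IsScalarTower.algebraMap_apply ℂ k L,
        ← IsScalarTower.algebraMap_apply]
    have b2 : IsScalarTower ℂ K F₂ := IsScalarTower.of_algebraMap_eq fun x => by
      rw [IsScalarTower.algebraMap_apply K F F₂, ← IsScalarTower.algebraMap_apply ℂ K F,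
        ← IsScalarTower.algebraMap_apply]
    have z := smono (scomp s (⟨c, f1, f2, r1, r2, u⟩ : Sqr D L L₂ T' T₂)) e
    exact ⟨hk, hK, ac, L₂, F₂, i1, i2, i3, i4, a1, a2, i7, b1, b2, i10, T₂, z.com, z.f1, z.f2, z.r1,
      z.r2, z.un, t⟩
  | succ n ih =>
    rintro (h | ⟨-, -, -, L₂, M, F₂, i1, i2, i3, i4, i5, i6, i7, i8, i9, i10, i11, i12, i13,
      i14, i15, i16, i17, T₂, a, b, hr, s₂, g1, g2⟩)
    · exact Or.inl (ih h)
    letI a1 : Algebra k L₂ := ((algebraMap L L₂).comp (algebraMap k L)).toAlgebra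
    letI a2 : Algebra K F₂ := ((algebraMap F F₂).comp (algebraMap K F)).toAlgebra
    haveI : IsScalarTower k L L₂ := IsScalarTower.of_algebraMap_eq fun _ => rfl
    haveI : IsScalarTower K F F₂ := IsScalarTower.of_algebraMap_eq fun _ => rfl
    have b1 : IsScalarTower ℂ k L₂ := IsScalarTower.of_algebraMap_eq fun x => by
      rw [IsScalarTower.algebraMap_apply k L L₂, ← IsScalarTower.algebraMap_apply ℂ k L,
        ← IsScalarTower.algebraMap_apply]
    have b2 : IsScalarTower ℂ K F₂ := IsScalarTower.of_algebraMap_eq fun x => by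
      rw [IsScalarTower.algebraMap_apply K F F₂, ← IsScalarTower.algebraMap_apply ℂ K F,
        ← IsScalarTower.algebraMap_apply]
    exact Or.inr ⟨hk, hK, ac, L₂, M, F₂, i1, i2, i3, i4, i5, i6, a1, a2, i9, i10, i11, b1, b2,
      i14, i15, i16, i17, T₂, a, b, hr, smono (scomp s s₂) e, mono e' _ _ _ _ _ _ g1,
      mono e' _ _ _ _ _ _ g2⟩

end Vale.Agent.P283R.Dn
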