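import Vale.Agent.P283R.Dn.St

/-!
# P283R, block DN: the row `SQG`
-/

set_option linter.all false

noncomputable section

namespace Vale.Agent.P283R.Dn

open Vale.Agent.P287D
open Cf (Tow Go Acl ForE dn)
open Dp (Gt)

namespace S61

theorem cmp {k K L F L' F' : Type} [Field k] [Field K] [Algebra ℂ K] [Field L] [Field F]
    [Algebra ℂ F] [Field L'] [Field F'] [Algebra ℂ F'] [Algebra k K] [Algebra k L] [Algebra K F]
    [Algebra L F] [Algebra L L'] [Algebra F F'] [Algebra L' F'] [Algebra k L'] [Algebra K F']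
    [IsScalarTower k L L'] [IsScalarTower K F F'] {T : Set (Pl K)} {T' : Set (Pl F)}
    {T'' : Set (Pl F')} {j D D' : ℕ} (h : Sqr j k L T T') (h' : Sqr D L L' T' T'')
    (hD : j * D ≤ D') : Sqr D' k L' T T'' := by
  have := h.f1
  have := h.f2
  have := h'.f1
  have := h'.f2
  refine ⟨fun a => ?_, Module.Finite.trans L L', Module.Finite.trans F F', ?_, ?_,
    fun P hP => ?_⟩
  · rw [IsScalarTower.algebraMap_apply k L L', h'.com, h.com,
      ← IsScalarTower.algebraMap_apply K F F']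
  · rw [← Module.finrank_mul_finrank k L L']
    exact (Nat.mul_le_mul h.r1 h'.r1).trans hD
  · rw [← Module.finrank_mul_finrank K F F']
    exact (Nat.mul_le_mul h.r2 h'.r2).trans hD
  · obtain ⟨Q, hQ, l1, e1⟩ := h'.un P hP
    obtain ⟨R, hR, l2, e2⟩ := h.un Q hQ
    refine ⟨R, hR, ?_, ?_⟩
    · rw [IsScalarTower.algebraMap_eq K F F']
      exact l1.comp l2
    · rw [IsScalarTower.algebraMap_apply K F F', l1.ord, e1, e2, one_mul]

theorem mono {D D' : ℕ} (hD : D ≤ D') (n : ℕ) : ∀ (d r : ℕ) (k K : Type) [Field k] [Algebra ℂ k]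
    [Field K] [Algebra ℂ K] [Algebra k K] (T : Set (Pl K)), Gn D n d r k K T → Gn D' n d r k K T := by
  induction n with
  | zero =>
    rintro d r k K _ _ _ _ _ T ⟨a1, a2, a3, L, F, _, _, _, _, _, _, _, _, _, _, T', b1, b2, b3, b4,
      b5, b6⟩
    exact ⟨a1, a2, a3, L, F, _, _, _, _, _, _, _, ‹_›, ‹_›, ‹_›, T', b1, b2, b3, b4.trans hD,
      b5.trans hD, b6⟩
  | succ n ih =>
    rintro d r k K _ _ _ _ _ T (h | ⟨a1, a2, a3, L, M, F, _, _, _, _, _, _, _, _, _, _, _, i1, i2,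
      i3, i4, i5, i6, T', a, b, e, s, g1, g2⟩)
    · exact Or.inl (ih _ _ _ _ _ h)
    · exact Or.inr ⟨a1, a2, a3, L, M, F, _, _, _, _, _, _, _, _, _, _, _, i1, i2, i3, i4, i5, i6,
        T', a, b, e, ⟨s.com, s.f1, s.f2, s.r1.trans hD, s.r2.trans hD, s.un⟩, ih _ _ _ _ _ g1,
        ih _ _ _ _ _ g2⟩

theorem tow {k L L' : Type} [Field k] [Algebra ℂ k] [Field L] [Algebra ℂ L] [Field L']
    [Algebra ℂ L'] [Algebra k L] [Algebra L L'] [Algebra k L'] [IsScalarTower ℂ k L]
    [IsScalarTower ℂ L L'] [IsScalarTower k L L'] : IsScalarTower ℂ k L' :=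
  .of_algebraMap_eq fun a => by
    rw [IsScalarTower.algebraMap_apply k L L', ← IsScalarTower.algebraMap_apply ℂ k L,
      ← IsScalarTower.algebraMap_apply ℂ L L']

end S61

open S61 in
/-- **SQG** -/
theorem sqg61 : SQG := by
  intro k K L F _ _ _ _ _ _ _ _ _ _ _ _ _ _ _ _ T T' j D D' n d r fk fK ac s hD
  have := s.f1
  have dd : D ≤ D' := le_trans (Nat.le_mul_of_pos_left _
    (lt_of_lt_of_le Module.finrank_pos s.r1)) hD
  induction n with
  | zero =>
    rintro ⟨a1, a2, a3, L', F', _, _, _, _, _, _, _, _, _, _, T'', b1, b2, b3, b4, b5, b6, b7⟩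
    letI := ((algebraMap L L').comp (algebraMap k L)).toAlgebra
    letI := ((algebraMap F F').comp (algebraMap K F)).toAlgebra
    haveI : IsScalarTower k L L' := .of_algebraMap_eq fun _ => rfl
    haveI : IsScalarTower K F F' := .of_algebraMap_eq fun _ => rfl
    have c := cmp s (⟨b1, b2, b3, b4, b5, b6⟩ : Sqr D L L' T' T'') hD
    exact ⟨fk, fK, ac, L', F', _, _, _, _, _, _, _, tow (L := L), tow (L := F), ‹_›, T'', c.com,
      c.f1, c.f2, c.r1, c.r2, c.un, b7⟩
  | succ n ih =>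
    rintro (h | ⟨a1, a2, a3, L', M, F', _, _, _, _, _, _, _, _, _, _, _, i1, i2,
      i3, i4, i5, i6, T'', a, b, e, s', g1, g2⟩)
    · exact Or.inl (ih h)
    · letI := ((algebraMap L L').comp (algebraMap k L)).toAlgebra
      letI := ((algebraMap F F').comp (algebraMap K F)).toAlgebra
      haveI : IsScalarTower k L L' := .of_algebraMap_eq fun _ => rfl
      haveI : IsScalarTower K F F' := .of_algebraMap_eq fun _ => rfl
      exact Or.inr ⟨fk, fK, ac, L', M, F', _, _, _, _, _, _, _, _, _, _, _, tow (L := L),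
        tow (L := F), i3, i4, i5, i6, T'', a, b, e, cmp s s' hD, mono dd _ _ _ _ _ _ g1,
        mono dd _ _ _ _ _ _ g2⟩

end Vale.Agent.P283R.Dn
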