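import Vale.Agent.P283R.Dp.On58
import Vale.Agent.P283R.Sl.Dn

/-!
# P283R, block DN: nested finite extensions of the base fields, the rows
-/

open Set CategoryTheory AlgebraicGeometry

noncomputable section

namespace Vale.Agent.P283R.Dn

open Vale.Agent.P287D
open Cf (Tow Go Acl ForE ForC Pri Triv Pull dn)
open Dp (Gt)

/-- a square of finite extensions of degree at most `D`, unramified along `T'` -/
structure Sqr (D : ℕ) (k : Type) {K : Type} (L : Type) {F : Type} [Field k] [Field K] [Algebra ℂ K]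
    [Field L] [Field F] [Algebra ℂ F] [Algebra k K] [Algebra k L] [Algebra K F] [Algebra L F]
    (T : Set (Pl K)) (T' : Set (Pl F)) : Prop where
  com : ∀ a : k, algebraMap L F (algebraMap k L a) = algebraMap K F (algebraMap k K a)
  f1 : FiniteDimensional k L
  f2 : FiniteDimensional K F
  r1 : Module.finrank k L ≤ D
  r2 : Module.finrank K F ≤ D
  un : ∀ P' ∈ T', ∃ P ∈ T, Lies (algebraMap K F) P' P ∧ P'.ord (algebraMap K F P.t) = 1

/-- the normal form: a tower after a finite extension, or two normal forms after a finite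
extension -/
def Gn (D : ℕ) : ∀ (_ _ _ : ℕ) (k K : Type) [Field k] [Algebra ℂ k] [Field K] [Algebra ℂ K]
    [Algebra k K], Set (Pl K) → Prop
  | 0, d, r, k, K, _, _, _, _, _, T => Gt D d r k K T
  | n + 1, d, r, k, K, _, _, _, _, _, T => Gn D n d r k K T ∨ FF k d ∧ FF K (d + r) ∧ Acl k K ∧
      ∃ (L M F : Type) (_ : Field L) (_ : Algebra ℂ L) (_ : Field M) (_ : Algebra ℂ M)
        (_ : Field F) (_ : Algebra ℂ F) (_ : Algebra k L) (_ : Algebra K F) (_ : Algebra L F)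
        (_ : Algebra L M) (_ : Algebra M F) (_ : IsScalarTower ℂ k L) (_ : IsScalarTower ℂ K F)
        (_ : IsScalarTower ℂ L F) (_ : IsScalarTower ℂ L M) (_ : IsScalarTower ℂ M F)
        (_ : IsScalarTower L M F) (T' : Set (Pl F)) (a b : ℕ), r = a + b ∧ Sqr D k L T T' ∧
        Gn D n (d + a) b M F T' ∧ Gn D n d a L M (dn M T')

/-- a statement on all squares -/
def ForQ (p : ∀ (k K L F : Type) [Field k] [Algebra ℂ k] [Field K] [Algebra ℂ K] [Field L]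
    [Algebra ℂ L] [Field F] [Algebra ℂ F] [Algebra k K] [Algebra k L] [Algebra K F] [Algebra L F],
    Set (Pl K) → Set (Pl F) → Prop) : Prop :=
  ∀ (k K L F : Type) [Field k] [Algebra ℂ k] [Field K] [Algebra ℂ K] [Field L] [Algebra ℂ L]
    [Field F] [Algebra ℂ F] [Algebra k K] [Algebra k L] [Algebra K F] [Algebra L F]
    [IsScalarTower ℂ k K] [IsScalarTower ℂ k L] [IsScalarTower ℂ K F] [IsScalarTower ℂ L F]
    (T : Set (Pl K)) (T' : Set (Pl F)), p k K L F T T'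

/-- a statement on all towers of two extensions -/
def ForT (p : ∀ (k M K : Type) [Field k] [Algebra ℂ k] [Field M] [Algebra ℂ M] [Field K]
    [Algebra ℂ K] [Algebra k M] [Algebra M K] [Algebra k K], Set (Pl K) → Prop) : Prop :=
  ∀ (k M K : Type) [Field k] [Algebra ℂ k] [Field M] [Algebra ℂ M] [Field K] [Algebra ℂ K]
    [Algebra k M] [Algebra M K] [Algebra k K] [IsScalarTower ℂ k M] [IsScalarTower ℂ M K]
    [IsScalarTower ℂ k K] [IsScalarTower k M K] (T : Set (Pl K)), p k M K T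

/-- **GOA**: the state descends along a square -/
def GOA : Prop := ∀ (D q q₁ M₁ : ℕ) (ε ε₁ : ℝ), 0 < q → 0 < q₁ → 0 < M₁ → 0 < ε → 0 < ε₁ →
  ∃ (q' M : ℕ) (ε' : ℝ), 0 < q' ∧ 0 < M ∧ 0 < ε' ∧
    ForQ fun k K L _ _ _ _ _ _ _ _ _ _ _ _ _ T T' => ∀ d r : ℕ, 1 ≤ d → FF k d → FF K (d + r) →
      Acl k K → Sqr D k L T T' → Go L d (d + r) q ε q₁ M₁ ε₁ T' → Go k d (d + r) q ε q' M ε' T

/-- **GOC**: two descents compose -/
def GOC : Prop := ForT fun k M K _ _ _ _ _ _ _ _ _ T => ∀ (d e n q q₁ M₁ q₂ M₂ : ℕ) (ε ε₁ ε₂ : ℝ),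
  0 < M₁ → 0 < M₂ → FF M e → FF K n → Go M e n q ε q₁ M₁ ε₁ T →
    Go k d e q₁ ε₁ q₂ M₂ ε₂ (dn M T) → Go k d n q ε q₂ (M₁ * M₂) ε₂ T

/-- **GOM**: weaker constants -/
def GOM : Prop := ForE fun k K _ _ _ _ _ => ∀ (d n q q₁ M₁ q₂ M₂ : ℕ) (ε ε₁ ε₂ : ℝ)
  (T : Set (Pl K)), q₁ ∣ q₂ → M₁ ∣ M₂ → 0 < M₂ → ε₂ ≤ ε₁ → Go k d n q ε q₁ M₁ ε₁ T →
    Go k d n q ε q₂ M₂ ε₂ T

/-- **TGN**: the state descends along a normal form -/
def TGN : Prop := ∀ (D n r q : ℕ) (ε : ℝ), 0 < q → 0 < ε → ∃ (q' M : ℕ) (ε' : ℝ), 0 < q' ∧ 0 < M ∧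
  0 < ε' ∧ ForE fun k K _ _ _ _ _ => ∀ (d : ℕ) (T : Set (Pl K)), 1 ≤ d → Gn D n d r k K T →
    FF k d ∧ FF K (d + r) ∧ Go k d (d + r) q ε q' M ε' T

/-- **TGR** -/
def TGR : Prop := Dp.TOG → GOA → GOC → GOM → TGN

/-- **SQG**: normal forms descend along squares -/
def SQG : Prop := ForQ fun k K L F _ _ _ _ _ _ _ _ _ _ _ _ T T' => ∀ j D D' n d r : ℕ, FF k d →
  FF K (d + r) → Acl k K → Sqr j k L T T' → j * D ≤ D' → Gn D n d r L F T' → Gn D' n d r k K T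

/-- **CMP**: normal forms compose -/
def CMP : Prop := ForT fun k M K _ _ _ _ _ _ _ _ _ T => ∀ (D d a b : ℕ) (T₁ : Set (Pl M)), 1 ≤ D →
  FF k d → FF M (d + a) → FF K (d + a + b) → Acl k M → Acl M K → Acl k K → T₁ ⊆ dn M T →
    Gn D b (d + a) b M K T → Gn D a d a k M T₁ → Gn D (a + b) d (a + b) k K T

/-- **CMR** -/
def CMR : Prop := SQG → CMP

section schemes

open Vale.Agent.P289 (Pt DForm dimension)
open Vale.Agent.P283M.Stm Vale.Agent.P283M.Stm.Var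
open Vale.Agent.P283R.Et (Pe)

/-- **FRS**: the square of a base change -/
def FRS : Prop := Eb.ForB fun X Y X' Y' g e g' _ ι => ∀ (p : Y.K →+* X.K) (p' : Y'.K →+* X'.K)
  (q : Y.K →+* Y'.K) (D d : ℕ), Pe g p → Pe g' p' → Pe e q → Sl.Spanned D ι →
    dimension Y.str = d → (letI := p.toAlgebra; letI := p'.toAlgebra; letI := q.toAlgebra
      letI := ι.toAlgebra; Sqr D Y.K Y'.K (Pri X) (Pri X'))

/-- **SMS**: the square of a small contraction -/
def SMS : Prop := ∀ (X' X Y : Var) (π : X'.X ⟶ X.X) (g : X.X ⟶ Y.X) (ι : X.K ≃+* X'.K)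
  (p : Y.K →+* X.K) (p' : Y.K →+* X'.K), Pe π (ι : X.K →+* X'.K) → Pe g p → Pe (π ≫ g) p' →
    π ≫ X.str = X'.str → (∀ E' : X'.PrimeDiv, (E'.1.map π).CodimOne) →
    (letI := p.toAlgebra; letI := p'.toAlgebra; letI := (ι : X.K →+* X'.K).toAlgebra
      Sqr 1 Y.K Y.K (Pri X) (Pri X'))

end schemes

open Sl Sl.Var in
/-- **STG**: the normal form of a morphism -/
def STG : Prop := ∀ (J : ℕ) (X Y : Sl.Var) (g : X.X ⟶ Y.X), Steps J g → Contraction g ∧ 1 ≤ J ∧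
  ∀ (W : Sl.Var) (h : Y.X ⟶ W.X) (d e : ℕ) (ω : X.Form d) (p : Y.K →+* X.K), Surjective h →
    dimension X.str = d → dimension Y.str = e → 1 ≤ e → ω.Nonzero → FanoType (g ≫ h) ω →
    Et.Pe (W := X.o) (Z := Y.o) g p → ∃ r : ℕ, d = e + r ∧
      (letI := p.toAlgebra; Gn J r e r Y.K X.K (Pri X.o))

/-- **STR** -/
def STR : Prop := Dp.REL → TGN → SQG → CMP → FRS → SMS → STG

end Vale.Agent.P283R.Dn
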