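import Vale.Agent.P283R.Dn.St
import Vale.Agent.P283R.Dp.Dwg64
import Vale.Agent.P283R.Dp.Ftg35
import Vale.Agent.P283R.Dp.Frr88

/-!
# P283R, block DN: the normal form of a morphism
-/

open Set CategoryTheory AlgebraicGeometry

noncomputable section

namespace Vale.Agent.P283R.Dn

open Vale.Agent.P287D
open Cf (Tow Go Acl ForE ForC Pri Triv Pull dn)
open Dp (Gt)

theorem Gn.fuel {D n m d r : ℕ} {k K : Type} [Field k] [Algebra ℂ k] [Field K] [Algebra ℂ K]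
    [Algebra k K] {T : Set (Pl K)} (h : Gn D n d r k K T) (l : n ≤ m) : Gn D m d r k K T := by
  induction l with
  | refl => exact h
  | step _ i => exact .inl i

theorem gt_of {D d r : ℕ} {k K : Type} [Field k] [Algebra ℂ k] [Field K] [Algebra ℂ K]
    [Algebra k K] [IsScalarTower ℂ k K] {T : Set (Pl K)} (hD : 1 ≤ D) (a : FF k d)
    (b : FF K (d + r)) (c : Acl k K) (t : Tow d r k K T) : Gt D d r k K T :=
  ⟨a, b, c, k, K, _, _, _, _, _, _, _, inferInstance, inferInstance, inferInstance, T,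
    fun _ => rfl, inferInstance, inferInstance, by simpa using hD, by simpa using hD,
    fun P h => ⟨P, h, fun _ => Iff.rfl, P.ord_t⟩, t⟩

section

open Vale.Agent.P289 (Pt DForm dimension)
open Vale.Agent.P283M.Stm Vale.Agent.P283M.Stm.Var
open Vale.Agent.P283R.Et (Pe)

/-- the pair on the base -/
def DWN : Prop := ∀ (D r q : ℕ) (ε : ℝ), 0 < q → 0 < ε → ∃ (R : Finset ℚ) (M : ℕ) (ε' : ℝ),
  (∀ a ∈ R, 0 ≤ a ∧ a ≤ 1) ∧ 0 < M ∧ 0 < ε' ∧ ForC fun X Y g p => ∀ (d : ℕ)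
    (ω : DForm ℂ X.K (d + r)) (η : DForm ℂ Y.K d) (B : X.QDiv), 1 ≤ d →
    dimension X.str = (d + r : ℕ) → ω.Nonzero → η.Nonzero → Pair (ε ≤ ·) ⊤ ω B →
    (∀ E, ∃ z : ℤ, q * B E = z) → Triv g (logCan ω B) →
    (letI := p.toAlgebra; Gn D r d r Y.K X.K (Pri X)) → ∃ Δ : Y.QDiv, Pair (ε' ≤ ·) ⊤ η Δ ∧
      (∀ E, Δ E ≠ 0 → Δ E ∈ R) ∧ Pull g p (logCan ω B) (logCan η Δ) ∧
      ∀ (Z : Var) (h : Y.X ⟶ Z.X) (z : Pt Z.X) (n : ℕ), 0 < n → M ∣ n →
        HasKltComplement h η Δ n z → HasKltComplement (g ≫ h) ω B n z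

theorem dwn_of (t : TGN) : DWN := fun D r q ε q0 ε0 => by
  obtain ⟨q', M, ε', a, b, c, H⟩ := t D r r q ε q0 ε0
  refine ⟨_, M, ε', Dp.rng64 a, b, c, fun X Y g p hg hp d ω η B hd hx hω hη hB hq tr T => ?_⟩
  let _ := p.toAlgebra
  have : IsScalarTower ℂ Y.K X.K := .of_algebraMap_eq fun c => (hp.cst hg.1 c).symm
  obtain ⟨u, -, v⟩ := H Y.K X.K d _ hd T
  exact Dp.dwg64 ε0 a b c X Y g p hg hp d ω η B hd hx hω hη hB hq tr u v

theorem ftd_of (t : TGN) {X Y Z : Var} {g : X.X ⟶ Y.X} {h : Y.X ⟶ Z.X} {p : Y.K →+* X.K}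
    {D d r : ℕ} {ω : DForm ℂ X.K (d + r)} {η : DForm ℂ Y.K d} (hg : Contraction g) (hp : Pe g p)
    (hh : Surjective h) (hd : 1 ≤ d) (hx : dimension X.str = (d + r : ℕ)) (hω : ω.Nonzero)
    (hη : η.Nonzero) (T : letI := p.toAlgebra; Gn D r d r Y.K X.K (Pri X))
    (ft : FanoType (g ≫ h) ω) : FanoType h η :=
  Dp.ftg hg hp hh (by omega) hx hω (fun q ε B q0 ε0 a b c => by
    obtain ⟨_, _, ε', -, -, e, H⟩ := dwn_of t D r q ε q0 ε0
    obtain ⟨Δ, u, -, v, -⟩ := H X Y g p hg hp d ω η B hd hx hω hη a b c T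
    exact ⟨ε', Δ, e, u, v⟩) ft

open Vale.Agent.P283M.Br (ffd)

variable {X Y X' Y' T : Var} {g : X.X ⟶ Y.X} {p : Y.K →+* X.K} {J e r : ℕ}

theorem one96 (a : Contraction g) (hp : Pe g p) (J1 : 1 ≤ J) (hd : dimension X.str = (e + r : ℕ))
    (he : dimension Y.str = e) (t : letI := p.toAlgebra; Tow e r Y.K X.K (Pri X)) :
    letI := p.toAlgebra; Gn J r e r Y.K X.K (Pri X) := by
  let _ := p.toAlgebra
  have : IsScalarTower ℂ Y.K X.K := .of_algebraMap_eq fun c => (hp.cst a.1 c).symm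
  exact Gn.fuel (n := 0) (gt_of J1 (ffd Y e he) (ffd X _ hd) (Cf.Fto.acl a hp) t) r.zero_le

theorem cmp96 (cmp : CMP) {k : Y.X ⟶ T.X} {p₂ : T.K →+* Y.K} {p₀ : T.K →+* X.K} {s : ℕ}
    (c : Contraction g) (c' : Contraction k) (c₀ : Contraction (g ≫ k)) (h₁ : Pe g p)
    (h₂ : Pe k p₂) (hp : Pe (g ≫ k) p₀) (J1 : 1 ≤ J) (hd : dimension X.str = (e + r + s : ℕ))
    (hm : dimension Y.str = (e + r : ℕ)) (he : dimension T.str = e)
    (t : letI := p.toAlgebra; Gn J s (e + r) s Y.K X.K (Pri X))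
    (t' : letI := p₂.toAlgebra; Gn J r e r T.K Y.K (Pri Y)) :
    letI := p₀.toAlgebra; Gn J (r + s) e (r + s) T.K X.K (Pri X) := by
  obtain rfl : p₀ = p.comp p₂ := Dp.pe_uniq88 hp (Ft.G58.pe_comp h₁ h₂)
  let _ := p.toAlgebra
  let _ := p₂.toAlgebra
  let _ := (p.comp p₂).toAlgebra
  have : IsScalarTower ℂ T.K Y.K := .of_algebraMap_eq fun c => (h₂.cst c'.1 c).symm
  have : IsScalarTower ℂ Y.K X.K := .of_algebraMap_eq fun x => (h₁.cst c.1 x).symm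
  have : IsScalarTower ℂ T.K X.K := .of_algebraMap_eq fun x => (hp.cst c₀.1 x).symm
  have : IsScalarTower T.K Y.K X.K := .of_algebraMap_eq fun _ => rfl
  exact cmp T.K Y.K X.K _ J e r s _ J1 (ffd T e he) (ffd Y _ hm) (ffd X _ hd) (Cf.Fto.acl c' h₂)
    (Cf.Fto.acl c h₁) (Cf.Fto.acl c₀ hp) (Cf.prm X Y g p c h₁).1 t t'

theorem sml96 (sqg : SQG) (sms : SMS) {π : X'.X ⟶ X.X} {ι : X.K ≃+* X'.K} {p' : Y.K →+* X'.K}
    (a : π ≫ X.str = X'.str) (cg : Contraction g) (c : Contraction (π ≫ g))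
    (pe : Pe π (ι : X.K →+* X'.K)) (hp : Pe g p) (h' : Pe (π ≫ g) p')
    (sm : ∀ E' : X'.PrimeDiv, (E'.1.map π).CodimOne) (hd : dimension X.str = (e + r : ℕ))
    (he : dimension Y.str = e) (t : letI := p'.toAlgebra; Gn J r e r Y.K X'.K (Pri X')) :
    letI := p.toAlgebra; Gn J r e r Y.K X.K (Pri X) := by
  let _ := p.toAlgebra
  let _ := p'.toAlgebra
  let _ := (ι : X.K →+* X'.K).toAlgebra
  have : IsScalarTower ℂ Y.K X.K := .of_algebraMap_eq fun c => (hp.cst cg.1 c).symm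
  have : IsScalarTower ℂ X.K X'.K := .of_algebraMap_eq fun x => (pe.cst a x).symm
  have : IsScalarTower ℂ Y.K X'.K := .of_algebraMap_eq fun x => (h'.cst c.1 x).symm
  exact sqg Y.K X.K Y.K X'.K _ _ 1 J J r e r (ffd Y e he) (ffd X _ hd) (Cf.Fto.acl cg hp)
    (sms X' X Y π g ι p p' pe hp h' a sm) (one_mul J).le t

theorem eta96 (sqg : SQG) (frs : FRS) {g' : X'.X ⟶ Y'.X} {π : X'.X ⟶ X.X} {u : Y'.X ⟶ Y.X}
    {ι : X.K →+* X'.K} {p' : Y'.K →+* X'.K} {j k : ℕ} (B : Eb.Bc g u g' π ι)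
    (c : Contraction g') (hp : Pe g p) (hp' : Pe g' p') (sp : Sl.Spanned j ι) (le : j * k ≤ J)
    (hd : dimension X.str = (e + r : ℕ)) (he : dimension Y.str = e)
    (t : letI := p'.toAlgebra; Gn k r e r Y'.K X'.K (Pri X')) :
    letI := p.toAlgebra; Gn J r e r Y.K X.K (Pri X) := by
  have := B.et
  obtain ⟨q, hq⟩ := Et.exists_pe u
  have eq : Eb.Ep u q := ⟨B.et, B.ov, hq⟩
  let _ := p.toAlgebra
  let _ := p'.toAlgebra
  let _ := q.toAlgebra
  let _ := ι.toAlgebra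
  have : IsScalarTower ℂ Y.K X.K := .of_algebraMap_eq fun c => (hp.cst B.con.1 c).symm
  have : IsScalarTower ℂ Y.K Y'.K := eq.tw
  have : IsScalarTower ℂ X.K X'.K := B.ep.tw
  have : IsScalarTower ℂ Y'.K X'.K := .of_algebraMap_eq fun x => (hp'.cst c.1 x).symm
  exact sqg Y.K X.K Y'.K X'.K _ _ j k J r e r (ffd Y e he) (ffd X _ hd) (Cf.Fto.acl B.con hp)
    (frs _ _ _ _ _ _ _ _ _ B p p' q j e hp hp' hq sp he) le t

end

open Sl Sl.Var P283M.Br in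
/-- **STR** -/
theorem str96 : STR := by
  intro rel tgn sqg cmp frs sms J X Y g c
  induction c with
  | @one J X Y g a i =>
    refine ⟨a, by omega, fun W h d e ω p _ hd he _ b ft hp => ?_⟩
    rw [hd, he] at i
    obtain ⟨p', hp', t⟩ := tower_le a hd he (by exact_mod_cast i) b ft
    obtain rfl : p = p' := Dp.pe_uniq88 (W := X.o) (Z := Y.o) hp hp'
    obtain ⟨r, rfl, T⟩ := Cf.adp' g a.1 p hp hd he t
    exact ⟨r, rfl, one96 (X := X.o) (Y := Y.o) a hp (by omega) hd he T⟩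
  | @comp J X Y T g k _ _ i i' =>
    obtain ⟨c, J1, i⟩ := i
    obtain ⟨c', -, i'⟩ := i'
    refine ⟨c.comp c', J1, fun W h d e ω p s hd he e1 b ft hp => ?_⟩
    obtain ⟨m, η, hm, η0⟩ := exists_form Y
    have m1 := e1.trans (c'.dim_le hm he)
    have := c'.2.2.1
    have := c.2.2.1
    rw [Category.assoc] at ft
    obtain ⟨p₁, h₁⟩ := Cf.Fto.exists_pe (X := X.o) (Y := Y.o) g
    obtain ⟨p₂, h₂⟩ := Cf.Fto.exists_pe (X := Y.o) (Y := T.o) k
    have s' : Surjective (k ≫ h) := inferInstance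
    obtain ⟨r₁, rfl, t⟩ := i W (k ≫ h) d m ω p₁ s' hd hm m1 b ft h₁
    obtain ⟨r₂, rfl, t'⟩ := i' W h m e η p₂ s hm he e1 η0 ((fanoType_iff _ η).2
      (ftd_of tgn (X := X.o) (Y := Y.o) (Z := W.o) (h := k ≫ h) c h₁ s' m1 hd b η0 t
        ((fanoType_iff _ ω).1 ft))) h₂
    exact ⟨r₂ + r₁, add_assoc _ _ _, cmp96 (X := X.o) (Y := Y.o) (T := T.o) (g := g) (k := k) cmp
      c c' (c.comp c') h₁ h₂ hp J1 hd hm he t t'⟩
  | @small J X' X Y π g ι a hι sm _ i =>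
    obtain ⟨c, J1, i⟩ := i
    have cg := a.of_comp c
    refine ⟨cg, J1, fun W h d e ω p s hd he e1 b ft hp => ?_⟩
    obtain ⟨m, η, hm, η0⟩ := exists_form X'
    obtain rfl : d = m := Nat.cast_injective (hd.symm.trans ((dim_pull a hι).trans hm))
    have := c.2.2.1
    obtain ⟨p', h'⟩ := Cf.Fto.exists_pe (X := X'.o) (Y := Y.o) (π ≫ g)
    obtain ⟨r, rfl, t⟩ := i W h d e η p' s hm he e1 η0 (by
      have := cg.2.2.1
      rw [Category.assoc]
      exact (fanoType_iff _ η).2 (Ft.fta X'.o X.o W.o π (g ≫ h) ι d ω η a.1 hι sm inferInstance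
        (e1.trans (cg.dim_le hd he)) hd hm b η0 ((fanoType_iff _ ω).1 ft))) h'
    exact ⟨r, rfl, sml96 (X := X.o) (Y := Y.o) (X' := X'.o) (g := g) (π := π) (ι := ι) sqg sms a.1
      cg c hι hp h' sm hd he t⟩
  | @etale J j k X' Y' X Y g' π u g β cg et ov pb sp le _ i =>
    obtain ⟨c, k1, i⟩ := i
    have j1 : 1 ≤ j := Nat.pos_of_ne_zero fun z => by
      subst z
      obtain ⟨_, _, e⟩ := sp 1
      simp at e
    refine ⟨cg, (Nat.mul_le_mul j1 k1).trans le, fun W h d e ω p s hd he e1 b ft hp => ?_⟩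
    have : Etale π := MorphismProperty.of_isPullback pb.flip et
    obtain ⟨ι, hι⟩ := Et.exists_pe (W := X'.o) (Z := X.o) π
    have o : π ≫ X.str = X'.str := by
      rw [← cg.1, ← Category.assoc, pb.w, Category.assoc, ov, c.1]
    have B : Eb.Bc (X := X.o) (Z := Y.o) (Y := X'.o) (W := Y'.o) g u g' π ι :=
      ⟨cg, et, ov, pb, this, o, hι⟩
    have d1 := e1.trans (cg.dim_le hd he)
    have := c.2.2.1
    obtain ⟨p', hp'⟩ := Cf.Fto.exists_pe (X := X'.o) (Y := Y'.o) g'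
    obtain ⟨q, hq⟩ := Et.exists_pe (W := Y'.o) (Z := Y.o) u
    have hd' : dimension X'.str = d := Eb.dim _ _ _ _ B.ep d hd
    have he' : dimension Y'.str = e := Eb.dim Y.o Y'.o u q ⟨et, ov, hq⟩ e he
    obtain ⟨m, η, hm, η0⟩ := exists_form X'
    obtain rfl : d = m := Nat.cast_injective (hd'.symm.trans hm)
    have f1 : FanoType g' η := fan_up B d1 hd b η0 ((fanoType_iff g ω).2
      (rel X.o Y.o W.o g h d ω cg.2.2.1 s d1 hd b ((fanoType_iff _ ω).1 ft)))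
    obtain ⟨r, rfl, t⟩ := i Y' (𝟙 _) d e η p' inferInstance hd' he' e1 η0
      ((Category.comp_id g').symm ▸ f1) hp'
    exact ⟨r, rfl, eta96 (X := X.o) (Y := Y.o) (X' := X'.o) (Y' := Y'.o) sqg frs B c hp hp'
      ⟨β, fun a => let ⟨y, c, z⟩ := sp a
        ⟨fun i => toRat (c i), z.trans (Finset.sum_congr rfl fun i _ =>
          congrArg (· * β i) (hι y (c i)).symm)⟩⟩ le hd he t⟩

end Vale.Agent.P283R.Dn
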