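import Vale.Agent.P283R.Dn.St

/-!
# P283R, block DN: the state descends along a normal form (row `TGR`)
-/

set_option linter.all false

open Finset

namespace Vale.Agent.P283R.Dn

theorem tgr14 : TGR := fun tog goa goc gom D n => by
  induction n with
  | zero => exact tog D
  | succ n ih =>
    intro r q ε q0 e0
    obtain ⟨q₀, M₀, ε₀, a0, b0, c0, h₀⟩ := ih r q ε q0 e0
    choose q₁ M₁ ε₁ a1 b1 c1 h₁ using fun b => ih b q ε q0 e0
    choose q₂ M₂ ε₂ a2 b2 c2 h₂ using fun a => ih a (q₁ (r - a)) (ε₁ (r - a)) (a1 _) (c1 _)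
    choose q₃ M₃ ε₃ a3 b3 c3 h₃ using fun a => goa D q (q₂ a) (M₁ (r - a) * M₂ a) ε (ε₂ a) q0
      (a2 a) (Nat.mul_pos (b1 _) (b2 a)) e0 (c2 a)
    have m0 : 0 < M₀ * ∏ a ∈ range (r + 1), M₃ a := Nat.mul_pos b0 (prod_pos fun a _ => b3 a)
    refine ⟨q₀ * ∏ a ∈ range (r + 1), q₃ a, _, min ε₀ ((range (r + 1)).inf' nonempty_range_add_one
      ε₃), Nat.mul_pos a0 (prod_pos fun a _ => a3 a), m0,
      lt_min c0 ((lt_inf'_iff _).2 fun a _ => c3 a), fun k K _ _ _ _ _ _ d T d1 h => ?_⟩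
    rcases h with h | ⟨fk, fK, ac, L, M, F, _, _, _, _, _, _, _, _, _, _, _, _, _, _, _, _, _, T',
      a, b, rfl, sq, g1, g2⟩
    · obtain ⟨fk, fK, g⟩ := h₀ k K d T d1 h
      exact ⟨fk, fK, gom k K _ _ _ _ _ _ _ _ _ _ T (dvd_mul_right _ _) (dvd_mul_right _ _) m0
        (min_le_left _ _) g⟩
    · have ha : a ∈ range (a + b + 1) := mem_range.2 (by omega)
      obtain ⟨fM, fF, g3⟩ := h₁ b M F (d + a) T' (by omega) g1
      obtain ⟨-, -, g4⟩ := h₂ a L M d _ d1 g2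
      have g5 := h₃ a k K L F T T' d (a + b) d1 fk fK ac sq
      rw [Nat.add_sub_cancel_left] at g4 g5
      refine ⟨fk, fK, gom k K _ _ _ _ _ _ _ _ _ _ T ((dvd_prod_of_mem _ ha).mul_left _)
        ((dvd_prod_of_mem _ ha).mul_left _) m0 ((min_le_right _ _).trans (inf'_le _ ha)) (g5 ?_)⟩
      rw [← add_assoc]
      exact goc L M F T' _ _ _ _ _ _ _ _ _ _ _ (b1 b) (b2 a) fM fF g3 g4

end Vale.Agent.P283R.Dn
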